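import Vale.Agent.P312.Final

open Vale.Agent.P312

theorem Vale.Agent.Results.P312.TwoFifths.result (A : Type) [Finite A] :
    (∃ δ : ℝ, 0 < δ ∧ ∀ t : ℕ → ℕ, (∀ n, n ≤ t n) →
      TIME1 A t ⊆ SPACE A (fun n => (t n : ℝ) ^ (1 / 2 - δ))) ∧
    (∀ e : ℝ, 2 / 5 < e → ∀ t : ℕ → ℕ, (∀ n, n ≤ t n) →
      TIME1 A t ⊆ SPACE A (fun n => (t n : ℝ) ^ e)) ∧
    (∀ t : ℕ → ℕ, (∀ n, n ≤ t n) →
      TIME1 A t ⊆ SPACE A (fun n => (t n : ℝ) ^ (2 / 5 : ℝ) * Real.log (t n) ^ 2)) :=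
  ⟨⟨1 / 20, by norm_num, fun t ht => time_sub_space' (by norm_num) t ht⟩,
    fun _ he t ht => time_sub_space' he t ht, time_sub_space⟩
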